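import Mathlib
import Vale.Agent.P095.Amenable.Small.Compress

/-!
Approximate subequivalence of finite families of elements of a C*-algebra.
-/

noncomputable section

open scoped CStarAlgebra
open Finset

namespace Vale.Agent.P095.General.Cu

open Vale.Agent.P095.Amenable (cut)
open Vale.Agent.P095.Amenable.Small

universe u

variable {D : Type u} [CStarAlgebra D] {ι κ ι' κ' μ : Type} [Fintype ι] [Fintype κ] [Fintype ι']
  [Fintype κ'] [Fintype μ]

/-- The family x lies below the family y. -/
def Sub (x : ι → D) (y : κ → D) : Prop :=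
  ∀ ε : ℝ, 0 < ε → ∃ V : κ → ι → D, ∀ i j,
    (i = j → ‖∑ p, star (V p i) * y p * V p j - x i‖ ≤ ε) ∧
    (i ≠ j → ‖∑ p, star (V p i) * y p * V p j‖ ≤ ε)

lemma sub_of_exact {x : ι → D} {y : κ → D} (V : κ → ι → D)
    (h : ∀ i, ∑ p, star (V p i) * y p * V p i = x i)
    (h' : ∀ i j, i ≠ j → ∑ p, star (V p i) * y p * V p j = 0) : Sub x y := fun ε hε =>
  ⟨V, fun i j => ⟨fun hij => by subst hij; rw [h, sub_self, norm_zero]; exact hε.le,
    fun hij => by rw [h' i j hij, norm_zero]; exact hε.le⟩⟩

lemma sub_of_map (e : ι → κ) (he : Function.Injective e) (y : κ → D) :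
    Sub (fun i => y (e i)) y := by
  classical
  refine sub_of_exact (fun p i => if p = e i then 1 else 0) (fun i => ?_) fun i j hij => ?_
  · rw [sum_eq_single (e i)] <;> simp +contextual
  · refine sum_eq_zero fun p _ => ?_
    by_cases h : p = e i
    · rw [if_neg (show p ≠ e j from fun h' => hij (he (h.symm.trans h')))]
      simp
    · simp [h]

lemma Sub.refl (x : ι → D) : Sub x x := sub_of_map id Function.injective_id x

lemma Sub.trans {x : ι → D} {y : κ → D} {z : μ → D} (h : Sub x y) (h' : Sub y z) : Sub x z := by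
  classical
  intro ε hε
  obtain ⟨V, hV⟩ := h (ε / 2) (half_pos hε)
  set M : ℝ := ∑ p, ∑ i, ‖V p i‖ with hM
  have hM0 : 0 ≤ M := by positivity
  obtain ⟨W, hW⟩ := h' (ε / (2 * ((Fintype.card κ : ℝ) ^ 2 * M ^ 2 + 1))) (by positivity)
  set γ := ε / (2 * ((Fintype.card κ : ℝ) ^ 2 * M ^ 2 + 1)) with hγ
  refine ⟨fun r i => ∑ p, W r p * V p i, fun i j => ?_⟩
  have key : ‖∑ r, star (∑ p, W r p * V p i) * z r * (∑ p, W r p * V p j)
      - ∑ p, star (V p i) * y p * V p j‖ ≤ ε / 2 := by
    have e1 : ∑ r, star (∑ p, W r p * V p i) * z r * (∑ p, W r p * V p j)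
        - ∑ p, star (V p i) * y p * V p j = ∑ p, ∑ q, star (V p i) *
          ((∑ r, star (W r p) * z r * W r q) - if p = q then y p else 0) * V q j := by
      simp only [mul_sub, sub_mul, sum_sub_distrib, mul_ite, ite_mul, mul_zero, zero_mul,
        sum_ite_eq, mem_univ, if_true, star_sum, star_mul, sum_mul, mul_sum, mul_assoc]
      congr 1
      refine sum_comm.trans ((sum_congr rfl fun p _ => sum_comm).trans ?_)
      exact sum_comm
    rw [e1]
    have hVp : ∀ p i, ‖V p i‖ ≤ M := fun p i =>
      (single_le_sum (fun i _ => norm_nonneg (V p i)) (mem_univ i)).trans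
        (single_le_sum (f := fun p => ∑ i, ‖V p i‖) (fun p _ => sum_nonneg fun i _ => norm_nonneg _)
          (mem_univ p))
    refine (norm_sum_le _ _).trans (le_trans (sum_le_sum fun p _ => (norm_sum_le _ _).trans
      (sum_le_sum fun q _ => (?_ : _ ≤ M * γ * M))) ?_)
    · refine (norm_mul_le _ _).trans (mul_le_mul ((norm_mul_le _ _).trans
        (mul_le_mul (by rw [norm_star]; exact hVp p i) ?_ (norm_nonneg _) hM0))
        (hVp q j) (norm_nonneg _) (by positivity))
      split_ifs with hpq
      · exact (hW p q).1 hpq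
      · rw [sub_zero]; exact (hW p q).2 hpq
    · simp only [sum_const, card_univ, nsmul_eq_mul]
      have h2 : ((Fintype.card κ : ℝ) ^ 2 * M ^ 2 + 1) * γ = ε / 2 := by
        rw [hγ]; field_simp
      have hγ0 : 0 < γ := by positivity
      nlinarith
  constructor <;> intro hij
  · have := (norm_sub_le_norm_sub_add_norm_sub _ (∑ p, star (V p i) * y p * V p j) _).trans
      (add_le_add key ((hV i j).1 hij))
    linarith
  · have := (norm_le_norm_add_norm_sub' _ (∑ p, star (V p i) * y p * V p j)).trans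
      (add_le_add ((hV i j).2 hij) key)
    linarith

lemma Sub.append {x : ι → D} {y : κ → D} {x' : ι' → D} {y' : κ' → D} (h : Sub x y)
    (h' : Sub x' y') : Sub (Sum.elim x x') (Sum.elim y y') := by
  intro ε hε
  obtain ⟨V, hV⟩ := h ε hε
  obtain ⟨V', hV'⟩ := h' ε hε
  refine ⟨fun p i => Sum.elim (fun p => Sum.elim (V p) (fun _ => 0) i)
    (fun p => Sum.elim (fun _ => 0) (V' p) i) p, ?_⟩
  rintro (i | i) (j | j) <;> constructor <;> intro hij
  · simpa [Fintype.sum_sum_type] using (hV i j).1 (Sum.inl_injective hij)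
  · simpa [Fintype.sum_sum_type] using (hV i j).2 fun e => hij (congrArg _ e)
  · exact absurd hij (by simp)
  · simp [Fintype.sum_sum_type, hε.le]
  · exact absurd hij (by simp)
  · simp [Fintype.sum_sum_type, hε.le]
  · simpa [Fintype.sum_sum_type] using (hV' i j).1 (Sum.inr_injective hij)
  · simpa [Fintype.sum_sum_type] using (hV' i j).2 fun e => hij (congrArg _ e)

/-- One element below one element. -/
def Le (a b : D) : Prop := Sub (fun _ : Unit => a) fun _ : Unit => b

lemma le_iff {a b : D} : Le a b ↔ ∀ ε : ℝ, 0 < ε → ∃ v : D, ‖star v * b * v - a‖ ≤ ε := by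
  refine forall_congr' fun ε => forall_congr' fun _ => ⟨fun ⟨V, hV⟩ => ⟨V () (), ?_⟩,
    fun ⟨v, hv⟩ => ⟨fun _ _ => v, fun i j => ⟨fun _ => ?_, fun h => absurd rfl h⟩⟩⟩
  · simpa using (hV () ()).1 rfl
  · simpa using hv

lemma Le.refl (a : D) : Le a a := Sub.refl _

lemma Le.trans {a b c : D} (h : Le a b) (h' : Le b c) : Le a c := Sub.trans h h'

lemma le_conj (v b : D) : Le (star v * b * v) b :=
  le_iff.2 fun ε hε => ⟨v, by rw [sub_self, norm_zero]; exact hε.le⟩

section Order

variable [PartialOrder D] [StarOrderedRing D]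

lemma sqrt_conj {b : D} (hb : 0 ≤ b) (v : D) :
    star v * b * v = star (CFC.sqrt b * v) * (CFC.sqrt b * v) := by
  rw [star_mul, (IsSelfAdjoint.of_nonneg (CFC.sqrt_nonneg b)).star_eq]
  conv_lhs => rw [← CFC.sqrt_mul_sqrt_self b hb]
  simp only [mul_assoc]

lemma le_of_le {a b : D} (ha : 0 ≤ a) (h : a ≤ b) : Le a b := by
  have hb : 0 ≤ b := ha.trans h
  refine le_iff.2 fun ε hε => ?_
  have hZ : star (CFC.sqrt b) * CFC.sqrt b = b := by
    rw [(IsSelfAdjoint.of_nonneg (CFC.sqrt_nonneg b)).star_eq, CFC.sqrt_mul_sqrt_self b hb]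
  obtain ⟨G, hG⟩ := exists_factor ha (h.trans_eq hZ.symm) hε
  exact ⟨G, by rwa [sqrt_conj hb]⟩

lemma cut_isSelfAdjoint (a : D) (t : ℝ) : IsSelfAdjoint (cut a t) := cfc_predicate _ a

lemma norm_sub_cut_le {a : D} (ha : 0 ≤ a) {t : ℝ} (ht : 0 ≤ t) : ‖cut a t - a‖ ≤ t := by
  have hsa := IsSelfAdjoint.of_nonneg ha
  conv_lhs => arg 1; arg 2; rw [← cfc_id' ℝ a hsa]
  rw [cut, ← cfc_sub (fun x : ℝ => max (x - t) 0) (fun x : ℝ => x) a (cont_cut t).continuousOn
    continuous_id.continuousOn]
  refine norm_cfc_le ht fun x hx => ?_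
  have hx0 := spectrum_nonneg_of_nonneg ha hx
  rw [Real.norm_eq_abs, abs_le]
  constructor <;> rcases le_total x t with h | h <;>
    simp only [max_eq_right, max_eq_left, sub_nonpos, sub_nonneg, h] <;> linarith

/-- Small perturbations disappear after cutting. -/
lemma cut_le_of_near {a b : D} (ha : IsSelfAdjoint a) (hb : 0 ≤ b) {η η' : ℝ} (hη : η' < η)
    (h : ‖b - a‖ ≤ η') : Le (cut a η) b := by
  refine le_iff.2 fun ε hε => ?_
  have hS : star (CFC.sqrt b) * CFC.sqrt b = b := by
    rw [(IsSelfAdjoint.of_nonneg (CFC.sqrt_nonneg b)).star_eq, CFC.sqrt_mul_sqrt_self b hb]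
  obtain ⟨C, hC⟩ := exists_compress (S := CFC.sqrt b) (P := (1 : D)) ha (star_one D) (mul_one 1)
    (Commute.one_right a) hη (by rw [hS, one_mul, mul_one, mul_one]; exact h) hε
  refine ⟨C, ?_⟩
  rw [sqrt_conj hb]
  simpa using hC

lemma le_of_cut_le {a b : D} (ha : 0 ≤ a) (h : ∀ η : ℝ, 0 < η → Le (cut a η) b) : Le a b := by
  refine le_iff.2 fun ε hε => ?_
  obtain ⟨v, hv⟩ := le_iff.1 (h (ε / 2) (half_pos hε)) (ε / 2) (half_pos hε)
  refine ⟨v, (norm_sub_le_norm_sub_add_norm_sub _ (cut a (ε / 2)) _).trans ?_⟩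
  linarith [norm_sub_cut_le ha (half_pos hε).le]

lemma cut_cut {a : D} (ha : IsSelfAdjoint a) {s r : ℝ} (hr : 0 ≤ r) :
    cut (cut a s) r = cut a (s + r) := by
  rw [cut, cut, cut, ← cfc_comp (fun x : ℝ => max (x - r) 0) (fun x : ℝ => max (x - s) 0) a ha
    (cont_cut r).continuousOn (cont_cut s).continuousOn]
  refine cfc_congr fun x _ => ?_
  simp only [Function.comp_apply]
  rcases le_total x s with h | h
  · rw [max_eq_right (sub_nonpos.2 h), max_eq_right (by linarith : (0 : ℝ) - r ≤ 0),
      max_eq_right (by linarith : x - (s + r) ≤ 0)]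
  · rw [max_eq_left (sub_nonneg.2 h), sub_sub]

/-- The positive part above t of something below y. -/
lemma cut_le_of_le {X Y : D} (hX : IsSelfAdjoint X) {t : ℝ} (hY : 0 ≤ Y)
    (h : X - algebraMap ℝ D t ≤ Y) : Le (cut X t) Y := by
  refine le_of_cut_le (cut_nonneg X t) fun η hη => ?_
  rw [cut_cut hX hη.le]
  set H := cfc (mult (t + η) t) X with hH
  have hlt : t < t + η := by linarith
  have hHsa : IsSelfAdjoint H := cfc_predicate _ X
  have e : H * (X - algebraMap ℝ D t) * H = cut X (t + η) := by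
    have e2 : cfc (fun x : ℝ => x - t) X = X - algebraMap ℝ D t := by
      rw [cfc_sub (fun x : ℝ => x) (fun _ : ℝ => t) X continuous_id.continuousOn continuousOn_const,
        cfc_id' ℝ X hX, cfc_const t X hX]
    rw [← e2, hH, cut, ← cfc_mul (mult (t + η) t) (fun x : ℝ => x - t) X
      (cont_mult hlt).continuousOn (continuous_id.sub continuous_const).continuousOn,
      ← cfc_mul (fun x => mult (t + η) t x * (x - t)) (mult (t + η) t) X
      ((cont_mult hlt).mul (continuous_id.sub continuous_const)).continuousOn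
      (cont_mult hlt).continuousOn]
    exact cfc_congr fun x _ => mult_sq hlt x
  have h1 := hHsa.conjugate_le_conjugate h
  rw [e] at h1
  refine (le_of_le (cut_nonneg X _) h1).trans ?_
  have := le_conj H Y
  rwa [hHsa.star_eq] at this

/-- A sum lies below the pair. -/
lemma add_sub_pair (a b : D) :
    Sub (fun _ : Unit => a + b) (Sum.elim (fun _ : Unit => a) fun _ : Unit => b) :=
  sub_of_exact (fun _ _ => 1) (fun _ => by simp [Fintype.sum_sum_type]) fun i j h =>
    absurd (Subsingleton.elim i j) h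

/-- An orthogonal pair lies below the sum. -/
lemma pair_sub_add {a b : D} (ha : 0 ≤ a) (hb : 0 ≤ b) (hab : a * b = 0) :
    Sub (Sum.elim (fun _ : Unit => a) fun _ : Unit => b) (fun _ : Unit => a + b) := by
  intro ε hε
  have hba : b * a = 0 := by
    simpa [(IsSelfAdjoint.of_nonneg ha).star_eq, (IsSelfAdjoint.of_nonneg hb).star_eq]
      using congrArg star hab
  have hunit : ∀ c : D, 0 ≤ c → ∃ g g' : D, IsSelfAdjoint g ∧ g = c * g' ∧ g = g' * c ∧
      ‖g * c * g - c‖ ≤ ε := by
    intro c hc
    have hsa := IsSelfAdjoint.of_nonneg hc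
    set f : ℝ → ℝ := fun x => (max x (ε / 2))⁻¹
    have hf : Continuous f := (continuous_id.max continuous_const).inv₀ fun x =>
      ne_of_gt (lt_of_lt_of_le (half_pos hε) (le_max_right _ _))
    have hxf : Continuous fun x : ℝ => x * f x := continuous_id.mul hf
    refine ⟨cfc (fun x : ℝ => x * f x) c, cfc f c, cfc_predicate _ c, ?_, ?_, ?_⟩
    · rw [cfc_mul (fun x : ℝ => x) f c continuous_id.continuousOn hf.continuousOn,
        cfc_id' ℝ c hsa]
    · rw [cfc_congr fun x _ => mul_comm x (f x),
        cfc_mul f (fun x : ℝ => x) c hf.continuousOn continuous_id.continuousOn, cfc_id' ℝ c hsa]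
    · conv_lhs => arg 1; arg 1; arg 1; arg 2; rw [← cfc_id' ℝ c hsa]
      conv_lhs => arg 1; arg 2; rw [← cfc_id' ℝ c hsa]
      rw [← cfc_mul (fun x : ℝ => x * f x) (fun x : ℝ => x) c hxf.continuousOn
        continuous_id.continuousOn, ← cfc_mul (fun x : ℝ => x * f x * x) (fun x : ℝ => x * f x) c
        (hxf.mul continuous_id).continuousOn hxf.continuousOn,
        ← cfc_sub (fun x : ℝ => x * f x * x * (x * f x)) (fun x : ℝ => x) c
        ((hxf.mul continuous_id).mul hxf).continuousOn continuous_id.continuousOn]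
      refine norm_cfc_le hε.le fun x hx => ?_
      have hx0 := spectrum_nonneg_of_nonneg hc hx
      rw [Real.norm_eq_abs, abs_le]
      rcases le_total x (ε / 2) with h | h
      · have hy : 0 ≤ x * f x ∧ x * f x ≤ 1 := by
          simp only [f, max_eq_right h]
          refine ⟨by positivity, ?_⟩
          rw [← div_eq_mul_inv, div_le_one (half_pos hε)]; exact h
        constructor <;> nlinarith [mul_le_mul hy.2 hy.2 hy.1 zero_le_one, mul_nonneg hy.1 hy.1]
      · have hy : x * f x = 1 := by
          simp only [f, max_eq_left h]; exact mul_inv_cancel₀ (by linarith)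
        simp [hy, hε.le]
  obtain ⟨g, g', hg, hg1, hg2, hga⟩ := hunit a ha
  obtain ⟨k, k', hk, hk1, hk2, hkb⟩ := hunit b hb
  have hgb : g * b = 0 := by rw [hg2, mul_assoc, hab, mul_zero]
  have hka : k * a = 0 := by rw [hk2, mul_assoc, hba, mul_zero]
  refine ⟨fun _ i => Sum.elim (fun _ => g) (fun _ => k) i, ?_⟩
  rintro (⟨⟩ | ⟨⟩) (⟨⟩ | ⟨⟩) <;> constructor <;> intro hij
  · simpa [hg.star_eq, mul_add, hgb] using hga
  · exact absurd rfl hij
  · exact absurd hij (by simp)
  · simp only [sum_const, card_univ, Fintype.card_unit, one_smul, Sum.elim_inl, Sum.elim_inr,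
      hg.star_eq, mul_add, hgb, add_zero]
    rw [mul_assoc g a k, hk1, ← mul_assoc a b k', hab]
    simp [hε.le]
  · exact absurd hij (by simp)
  · simp only [sum_const, card_univ, Fintype.card_unit, one_smul, Sum.elim_inl, Sum.elim_inr,
      hk.star_eq, mul_add, hka, zero_add]
    rw [mul_assoc k b g, hg1, ← mul_assoc b a g', hba]
    simp [hε.le]
  · simpa [hk.star_eq, mul_add, hka] using hkb
  · exact absurd rfl hij

lemma cfc_semiconj {x P Q : D} (hP : IsSelfAdjoint P) (hQ : IsSelfAdjoint Q)
    (h : x * P = Q * x) {f : ℝ → ℝ} (hf : Continuous f) : x * cfc f P = cfc f Q * x := by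
  have hpoly : ∀ p : Polynomial ℝ, x * Polynomial.aeval P p = Polynomial.aeval Q p * x := by
    intro p
    induction p using Polynomial.induction_on' with
    | add p q hp hq => rw [map_add, map_add, mul_add, add_mul, hp, hq]
    | monomial n c =>
      have hn : x * P ^ n = Q ^ n * x := SemiconjBy.pow_right (show SemiconjBy x P Q from h) n
      simp only [Polynomial.aeval_monomial, ← Algebra.smul_def]
      rw [mul_smul_comm, smul_mul_assoc, hn]
  refine eq_of_forall_dist_le fun ε hε => ?_
  set R := max (‖P‖ * ‖(1 : D)‖) (‖Q‖ * ‖(1 : D)‖)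
  have hγ : 0 < ε / (2 * (‖x‖ + 1)) := by positivity
  obtain ⟨p, hp⟩ := exists_polynomial_near_of_continuousOn (-R) R f hf.continuousOn _ hγ
  have hb : ∀ a : D, IsSelfAdjoint a → ‖a‖ * ‖(1 : D)‖ ≤ R →
      ‖cfc f a - Polynomial.aeval a p‖ ≤ ε / (2 * (‖x‖ + 1)) := by
    intro a ha haR
    rw [← cfc_polynomial p a ha, ← cfc_sub f (fun t => p.eval t) a hf.continuousOn
      p.continuous.continuousOn]
    refine norm_cfc_le hγ.le fun t ht => ?_
    have h2 := (spectrum.norm_le_norm_mul_of_mem ht).trans haR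
    rw [Real.norm_eq_abs] at h2
    rw [Real.norm_eq_abs, abs_sub_comm]
    exact (hp t ⟨(abs_le.1 h2).1, (abs_le.1 h2).2⟩).le
  rw [dist_eq_norm]
  have e : x * cfc f P - cfc f Q * x = x * (cfc f P - Polynomial.aeval P p)
      - (cfc f Q - Polynomial.aeval Q p) * x := by
    rw [mul_sub, sub_mul, hpoly]; abel
  rw [e]
  refine (norm_sub_le _ _).trans ((add_le_add (norm_mul_le _ _) (norm_mul_le _ _)).trans ?_)
  have h1 := hb P hP (le_max_left _ _)
  have h2 := hb Q hQ (le_max_right _ _)
  have e2 : (ε / (2 * (‖x‖ + 1))) * (2 * (‖x‖ + 1)) = ε := by field_simp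
  nlinarith [norm_nonneg x, norm_nonneg (cfc f P - Polynomial.aeval P p),
    norm_nonneg (cfc f Q - Polynomial.aeval Q p)]

/-- The cuts of star x * x lie below those of x * star x. -/
lemma cut_star_mul_le (x : D) {t : ℝ} (ht : 0 < t) :
    Le (cut (star x * x) t) (cut (x * star x) t) := by
  set P := star x * x
  set Q := x * star x
  have hP : IsSelfAdjoint P := IsSelfAdjoint.star_mul_self x
  have hQ : IsSelfAdjoint Q := IsSelfAdjoint.mul_star_self x
  have hint : x * cfc (fun s : ℝ => max (s - t) 0) P = cfc (fun s : ℝ => max (s - t) 0) Q * x :=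
    cfc_semiconj hP hQ (by simp only [P, Q, mul_assoc]) (cont_cut t)
  set g : ℝ → ℝ := fun s => (max s t)⁻¹
  have hg : Continuous g := (continuous_id.max continuous_const).inv₀ fun s =>
    ne_of_gt (lt_of_lt_of_le ht (le_max_right _ _))
  refine le_iff.2 fun ε hε => ?_
  set h : ℝ → ℝ := fun s => Real.sqrt (g s)
  have hh : Continuous h := hg.sqrt
  refine ⟨x * cfc h P, ?_⟩
  have hx : star (x * cfc h P) * cut Q t * (x * cfc h P)
      = cfc (fun s : ℝ => max (s - t) 0) P := by
    rw [star_mul, (cfc_predicate h P : IsSelfAdjoint _).star_eq, cut]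
    calc cfc h P * star x * cfc (fun s : ℝ => max (s - t) 0) Q * (x * cfc h P)
        = cfc h P * star x * (cfc (fun s : ℝ => max (s - t) 0) Q * x) * cfc h P := by
          simp only [mul_assoc]
      _ = cfc h P * P * cfc (fun s : ℝ => max (s - t) 0) P * cfc h P := by
          rw [← hint]; simp only [P, mul_assoc]
      _ = _ := by
          conv_lhs => arg 1; arg 1; arg 2; rw [← cfc_id' ℝ P hP]
          rw [← cfc_mul h (fun s : ℝ => s) P hh.continuousOn continuous_id.continuousOn,
            ← cfc_mul (fun s : ℝ => h s * s) (fun s : ℝ => max (s - t) 0) P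
              (hh.mul continuous_id).continuousOn (cont_cut t).continuousOn,
            ← cfc_mul (fun s : ℝ => h s * s * max (s - t) 0) h P
              ((hh.mul continuous_id).mul (cont_cut t)).continuousOn hh.continuousOn]
          refine cfc_congr fun s _ => ?_
          rcases le_total s t with hs | hs
          · simp [max_eq_right (sub_nonpos.2 hs)]
          · have e1 : h s * h s = g s :=
              Real.mul_self_sqrt (inv_nonneg.2 (ht.le.trans (le_max_right _ _)))
            calc h s * s * max (s - t) 0 * h s = (h s * h s) * s * max (s - t) 0 := by ring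
              _ = g s * s * max (s - t) 0 := by rw [e1]
              _ = _ := by
                simp only [g, max_eq_left hs]
                rw [inv_mul_cancel₀ (by linarith : s ≠ 0), one_mul]
  rw [hx, cut, sub_self, norm_zero]
  exact hε.le

end Order

end Vale.Agent.P095.General.Cu
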