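import Mathlib
import Vale.Agent.P095.General.Defs
import Vale.Agent.P095.General.Cu.Sub

/-!
Dimension states and the quasitracial states they give by integrating over the cuts.
-/

noncomputable section

open scoped CStarAlgebra
open Finset MeasureTheory

namespace Vale.Agent.P095.General.Cu

open Vale.Agent.P095.Amenable.Small

universe u

variable {D : Type u} [CStarAlgebra D] [PartialOrder D] [StarOrderedRing D]

/-- A state on subequivalence classes of finite families of positive elements. -/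
structure CuState (D : Type u) [CStarAlgebra D] [PartialOrder D] [StarOrderedRing D] where
  val : D → ℝ
  val_one : val 1 = 1
  mono : ∀ {n m : ℕ} (x : Fin n → D) (y : Fin m → D), (∀ i, 0 ≤ x i) → (∀ i, 0 ≤ y i) →
    Sub x y → ∑ i, val (x i) ≤ ∑ i, val (y i)

lemma sub_equiv {ι κ : Type} [Fintype ι] [Fintype κ] (x : ι → D) (e : κ ≃ ι) :
    Sub (fun i => x (e i)) x ∧ Sub x (fun i => x (e i)) := by
  refine ⟨sub_of_map e e.injective x, ?_⟩
  simpa using sub_of_map e.symm e.symm.injective fun i => x (e i)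

lemma le_one_of_nonneg {a : D} (ha : 0 ≤ a) : Le a 1 :=
  le_iff.2 fun ε hε => ⟨CFC.sqrt a, by
    rw [(IsSelfAdjoint.of_nonneg (CFC.sqrt_nonneg a)).star_eq, mul_one,
      CFC.sqrt_mul_sqrt_self a ha, sub_self, norm_zero]
    exact hε.le⟩

lemma cut_antitone {a : D} (ha : IsSelfAdjoint a) {s s' : ℝ} (h : s ≤ s') :
    Amenable.cut a s' ≤ Amenable.cut a s :=
  cfc_mono (fun x _ => max_le_max (by linarith) le_rfl) (cont_cut s').continuousOn
    (cont_cut s).continuousOn

lemma cut_smul {a : D} (ha : IsSelfAdjoint a) {r : ℝ} (hr : 0 < r) (s : ℝ) :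
    Amenable.cut (r • a) s = r • Amenable.cut a (r⁻¹ * s) := by
  rw [Amenable.cut, Amenable.cut, ← cfc_smul r (fun x : ℝ => max (x - r⁻¹ * s) 0) a (cont_cut _).continuousOn,
    ← cfc_comp_smul r (fun x : ℝ => max (x - s) 0) a (cont_cut s).continuousOn ha]
  refine cfc_congr fun x _ => ?_
  simp only [smul_eq_mul]
  rw [mul_max_of_nonneg _ _ hr.le, mul_zero, mul_sub, ← mul_assoc, mul_inv_cancel₀ hr.ne', one_mul]

lemma cut_eq_zero {a : D} (ha : 0 ≤ a) {s : ℝ} (hs : ‖a‖ ≤ s) : Amenable.cut a s = 0 := by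
  rw [Amenable.cut, cfc_congr (g := fun _ => (0 : ℝ)) fun x hx => ?_, cfc_const_zero]
  have h1 := IsSelfAdjoint.of_nonneg ha
  have h2 := (le_algebraMap_iff_spectrum_le h1).1 (h1.le_algebraMap_norm_self) x hx
  exact max_eq_right (by linarith)

/-- The cut of an orthogonal sum. -/
lemma cut_orth_add {a b : D} (ha : 0 ≤ a) (hb : 0 ≤ b) (hab : a * b = 0) {s : ℝ} (hs : 0 < s) :
    Amenable.cut (a + b) s = Amenable.cut a s + Amenable.cut b s ∧ Amenable.cut a s * Amenable.cut b s = 0 := by
  have hasa := IsSelfAdjoint.of_nonneg ha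
  have hbsa := IsSelfAdjoint.of_nonneg hb
  have hba : b * a = 0 := by simpa [hasa.star_eq, hbsa.star_eq] using congrArg star hab
  have hf : ∀ f : ℝ → ℝ, Continuous f → f 0 = 0 → ∀ c d : D, IsSelfAdjoint c → c * d = 0 →
      cfc f c * d = 0 := by
    intro f hf hf0 c d hc h
    have h0 : IsSelfAdjoint (0 : D) := IsSelfAdjoint.zero D
    have := cfc_semiconj hc h0 (show star d * c = 0 * star d by
      rw [zero_mul, ← hc.star_eq, ← star_mul, h, star_zero]) hf
    rw [cfc_apply_zero, hf0, map_zero, zero_mul] at this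
    simpa [(cfc_predicate f c : IsSelfAdjoint _).star_eq] using congrArg star this
  have hmin : Continuous fun x : ℝ => min x s := continuous_id.min continuous_const
  have hzero : ∀ f g : ℝ → ℝ, Continuous f → f 0 = 0 → Continuous g → g 0 = 0 →
      cfc f a * cfc g b = 0 ∧ cfc g b * cfc f a = 0 := by
    intro f g hf' hf0 hg hg0
    have h1 : cfc f a * b = 0 := hf f hf' hf0 a b hasa hab
    have h2 : b * cfc f a = 0 := by
      simpa [hbsa.star_eq, (cfc_predicate f a : IsSelfAdjoint _).star_eq] using congrArg star h1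
    have h3 := hf g hg hg0 b _ hbsa h2
    exact ⟨by simpa [(cfc_predicate f a : IsSelfAdjoint _).star_eq,
      (cfc_predicate g b : IsSelfAdjoint _).star_eq] using congrArg star h3, h3⟩
  have hc0 : (max ((0 : ℝ) - s) 0) = 0 := max_eq_right (by linarith)
  refine ⟨?_, (hzero _ _ (cont_cut s) hc0 (cont_cut s) hc0).1⟩
  set c := algebraMap ℝ D s - cfc (fun x : ℝ => min x s) a - cfc (fun x : ℝ => min x s) b with hc
  have hsplit : ∀ u : D, IsSelfAdjoint u → u = Amenable.cut u s + cfc (fun x : ℝ => min x s) u := by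
    intro u hu
    rw [Amenable.cut, ← cfc_add (a := u) (fun x : ℝ => max (x - s) 0) (fun x : ℝ => min x s)
      (cont_cut s).continuousOn hmin.continuousOn]
    conv_lhs => rw [← cfc_id' ℝ u hu]
    refine cfc_congr fun x _ => ?_
    rcases le_total x s with h | h
    · rw [max_eq_right (sub_nonpos.2 h), min_eq_left h, zero_add]
    · rw [max_eq_left (sub_nonneg.2 h), min_eq_right h, sub_add_cancel]
  have habs : a + b - algebraMap ℝ D s = Amenable.cut a s + Amenable.cut b s - c := by
    conv_lhs => rw [hsplit a hasa, hsplit b hbsa]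
    rw [hc]; abel
  have hmz : min (0 : ℝ) s = 0 := min_eq_left hs.le
  have hmin0 : cfc (fun x : ℝ => min x s) a * cfc (fun x : ℝ => min x s) b = 0 :=
    (hzero _ _ hmin hmz hmin hmz).1
  have hcm : ∀ u : D, IsSelfAdjoint u →
      Amenable.cut u s * (algebraMap ℝ D s - cfc (fun x : ℝ => min x s) u) = 0 := by
    intro u hu
    rw [← cfc_const s u hu, Amenable.cut,
      ← cfc_sub (fun _ : ℝ => s) (fun x : ℝ => min x s) u continuousOn_const hmin.continuousOn,
      ← cfc_mul (fun x : ℝ => max (x - s) 0) (fun x : ℝ => s - min x s) u (cont_cut s).continuousOn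
        (continuous_const.sub hmin).continuousOn, ← cfc_zero ℝ u]
    refine cfc_congr fun x _ => ?_
    rcases le_total x s with h | h
    · simp [max_eq_right (sub_nonpos.2 h)]
    · simp [min_eq_right h]
  have hprod : (Amenable.cut a s + Amenable.cut b s) * c = 0 := by
    have e1 : Amenable.cut a s * cfc (fun x : ℝ => min x s) b = 0 := (hzero _ _ (cont_cut s) hc0 hmin hmz).1
    have e2 : Amenable.cut b s * cfc (fun x : ℝ => min x s) a = 0 := (hzero _ _ hmin hmz (cont_cut s) hc0).2
    have e3 := hcm a hasa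
    have e4 := hcm b hbsa
    rw [mul_sub, sub_eq_zero] at e3 e4
    simp only [hc, add_mul, mul_sub, e1, e2, ← e3, ← e4]
    abel
  have hcnn : 0 ≤ c := by
    have h1 : ∀ u : D, IsSelfAdjoint u → 0 ≤ algebraMap ℝ D s - cfc (fun x : ℝ => min x s) u :=
      fun u hu => sub_nonneg.2 (cfc_le_algebraMap _ s u (fun x _ => min_le_right x s))
    have hcomm : Commute (algebraMap ℝ D s - cfc (fun x : ℝ => min x s) a)
        (algebraMap ℝ D s - cfc (fun x : ℝ => min x s) b) :=
      (Commute.sub_right (Algebra.commute_algebraMap_right s _)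
        ((Algebra.commute_algebraMap_left s _).sub_left (by
          rw [Commute, SemiconjBy, hmin0, (hzero _ _ hmin hmz hmin hmz).2])))
    have h2 := hcomm.mul_nonneg (h1 a hasa) (h1 b hbsa)
    have e : (algebraMap ℝ D s - cfc (fun x : ℝ => min x s) a) *
        (algebraMap ℝ D s - cfc (fun x : ℝ => min x s) b) = s • c := by
      rw [sub_mul, mul_sub, mul_sub, hmin0, Algebra.algebraMap_eq_smul_one, hc,
        Algebra.algebraMap_eq_smul_one]
      simp only [smul_mul_assoc, one_mul, mul_smul_comm, mul_one, smul_sub]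
      abel
    rw [e] at h2
    simpa [smul_smul, inv_mul_cancel₀ hs.ne'] using smul_nonneg (inv_nonneg.2 hs.le) h2
  have hX : IsSelfAdjoint (a + b) := hasa.add hbsa
  obtain ⟨u1, -⟩ := CFC.posPart_negPart_unique (a := a + b - algebraMap ℝ D s)
    (b := Amenable.cut a s + Amenable.cut b s) (c := c) habs hprod (add_nonneg (cut_nonneg a s) (cut_nonneg b s))
    hcnn
  obtain ⟨v1, -⟩ := CFC.posPart_negPart_unique (a := a + b - algebraMap ℝ D s)
    (b := Amenable.cut (a + b) s) (c := cfc (fun x : ℝ => max (s - x) 0) (a + b)) (by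
      rw [Amenable.cut, ← cfc_sub (fun x : ℝ => max (x - s) 0) (fun x : ℝ => max (s - x) 0) (a + b)
        (cont_cut s).continuousOn ((continuous_const.sub continuous_id).max continuous_const).continuousOn]
      conv_lhs => arg 1; rw [← cfc_id' ℝ (a + b) hX]
      rw [← cfc_const s (a + b) hX, ← cfc_sub (fun x : ℝ => x) (fun _ : ℝ => s) (a + b)
        continuous_id.continuousOn continuousOn_const]
      refine cfc_congr fun x _ => ?_
      rcases le_total x s with h | h
      · rw [max_eq_right (sub_nonpos.2 h), max_eq_left (sub_nonneg.2 h)]; ring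
      · rw [max_eq_left (sub_nonneg.2 h), max_eq_right (sub_nonpos.2 h)]; ring)
    (by
      rw [Amenable.cut, ← cfc_mul (fun x : ℝ => max (x - s) 0) (fun x : ℝ => max (s - x) 0) (a + b)
        (cont_cut s).continuousOn ((continuous_const.sub continuous_id).max continuous_const).continuousOn,
        ← cfc_zero ℝ (a + b)]
      refine cfc_congr fun x _ => ?_
      rcases le_total x s with h | h
      · simp [max_eq_right (sub_nonpos.2 h)]
      · simp [max_eq_right (sub_nonpos.2 h)])
    (cut_nonneg _ s) (cfc_nonneg fun _ _ => le_max_right _ _)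
  exact v1.symm.trans u1

namespace CuState

variable (d : CuState D)

lemma mono' {ι κ : Type} [Fintype ι] [Fintype κ] (x : ι → D) (y : κ → D) (hx : ∀ i, 0 ≤ x i)
    (hy : ∀ i, 0 ≤ y i) (h : Sub x y) : ∑ i, d.val (x i) ≤ ∑ i, d.val (y i) := by
  set e := (Fintype.equivFin ι).symm
  set f := (Fintype.equivFin κ).symm
  have := d.mono (fun i => x (e i)) (fun i => y (f i)) (fun i => hx _) (fun i => hy _)
    (((sub_equiv x e).1.trans h).trans (sub_equiv y f).2)
  rwa [e.sum_comp (fun i => d.val (x i)), f.sum_comp (fun i => d.val (y i))] at this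

lemma val_mono {a b : D} (ha : 0 ≤ a) (hb : 0 ≤ b) (h : Le a b) : d.val a ≤ d.val b := by
  simpa using d.mono' (fun _ : Unit => a) (fun _ : Unit => b) (fun _ => ha) (fun _ => hb) h

lemma val_zero : d.val 0 = 0 := by
  have h1 := d.mono' (fun i : Fin 0 => i.elim0) (fun _ : Unit => (0 : D)) (fun i => i.elim0)
    (fun _ => le_rfl) (sub_of_exact (fun _ i => i.elim0) (fun i => i.elim0) fun i => i.elim0)
  have h2 := d.mono' (fun _ : Unit => (0 : D)) (fun i : Fin 0 => i.elim0) (fun _ => le_rfl)
    (fun i => i.elim0) (sub_of_exact (fun i _ => i.elim0) (fun _ => by simp) fun i j h =>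
      absurd (Subsingleton.elim i j) h)
  simp at h1 h2
  linarith

lemma val_nonneg {a : D} (ha : 0 ≤ a) : 0 ≤ d.val a := by
  rw [← d.val_zero]
  exact d.val_mono le_rfl ha (le_iff.2 fun ε hε => ⟨0, by simpa using hε.le⟩)

lemma val_le_one {a : D} (ha : 0 ≤ a) : d.val a ≤ 1 :=
  (d.val_mono ha zero_le_one (le_one_of_nonneg ha)).trans_eq d.val_one

lemma val_add_le {a b : D} (ha : 0 ≤ a) (hb : 0 ≤ b) : d.val (a + b) ≤ d.val a + d.val b := by
  simpa using d.mono' _ _ (fun _ => add_nonneg ha hb) (by rintro (_ | _) <;> simp [ha, hb])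
    (add_sub_pair a b)

lemma val_add_orth {a b : D} (ha : 0 ≤ a) (hb : 0 ≤ b) (hab : a * b = 0) :
    d.val (a + b) = d.val a + d.val b := by
  refine le_antisymm (d.val_add_le ha hb) ?_
  simpa using d.mono' _ _ (by rintro (_ | _) <;> simp [ha, hb]) (fun _ => add_nonneg ha hb)
    (pair_sub_add ha hb hab)

lemma val_smul {a : D} (ha : 0 ≤ a) {r : ℝ} (hr : 0 < r) : d.val (r • a) = d.val a := by
  have key : ∀ (r : ℝ) (a : D), 0 < r → 0 ≤ a → d.val (r • a) ≤ d.val a := by
    intro r a hr ha
    refine d.val_mono (smul_nonneg hr.le ha) ha (le_iff.2 fun ε hε => ⟨Real.sqrt r • 1, ?_⟩)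
    rw [star_smul, star_trivial, star_one, smul_mul_assoc, one_mul, smul_mul_assoc, mul_smul_comm,
      mul_one, smul_smul, Real.mul_self_sqrt hr.le, sub_self, norm_zero]
    exact hε.le
  refine le_antisymm (key r a hr ha) ?_
  conv_lhs => rw [← one_smul ℝ a, ← inv_mul_cancel₀ hr.ne', ← smul_smul]
  exact key _ _ (inv_pos.2 hr) (smul_nonneg hr.le ha)

/-- The values on the cuts. -/
def prof (a : D) (s : ℝ) : ℝ := d.val (Amenable.cut a s)

/-- The integral over the cuts. -/
def qv (a : D) : ℝ := ∫ s in (0 : ℝ)..‖a‖, d.prof a s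

lemma prof_antitone {a : D} (ha : IsSelfAdjoint a) : Antitone (d.prof a) := fun _ _ h =>
  d.val_mono (cut_nonneg _ _) (cut_nonneg _ _) (le_of_le (cut_nonneg _ _) (cut_antitone ha h))

lemma prof_int {a : D} (ha : IsSelfAdjoint a) (u v : ℝ) :
    IntervalIntegrable (d.prof a) volume u v :=
  (d.prof_antitone ha).intervalIntegrable

lemma qv_eq {a : D} (ha : 0 ≤ a) {R : ℝ} (hR : ‖a‖ ≤ R) :
    d.qv a = ∫ s in (0 : ℝ)..R, d.prof a s := by
  have hsa := IsSelfAdjoint.of_nonneg ha
  rw [qv, ← intervalIntegral.integral_add_adjacent_intervals (d.prof_int hsa 0 ‖a‖)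
    (d.prof_int hsa ‖a‖ R)]
  have : ∫ s in ‖a‖..R, d.prof a s = ∫ _s in ‖a‖..R, (0 : ℝ) :=
    intervalIntegral.integral_congr fun s hs => by
      rw [Set.uIcc_of_le hR] at hs
      simp only [prof, cut_eq_zero ha hs.1, d.val_zero]
  simp [this]

lemma qv_nonneg {a : D} : 0 ≤ d.qv a :=
  intervalIntegral.integral_nonneg (norm_nonneg a) fun _ _ => d.val_nonneg (cut_nonneg _ _)

lemma qv_mono {a b : D} (ha : 0 ≤ a) (hab : a ≤ b) : d.qv a ≤ d.qv b := by
  have hb : 0 ≤ b := ha.trans hab
  have hasa := IsSelfAdjoint.of_nonneg ha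
  have hbsa := IsSelfAdjoint.of_nonneg hb
  rw [d.qv_eq ha (le_max_left ‖a‖ ‖b‖), d.qv_eq hb (le_max_right ‖a‖ ‖b‖)]
  refine intervalIntegral.integral_mono_on (le_max_of_le_left (norm_nonneg a))
    (d.prof_int hasa _ _) (d.prof_int hbsa _ _) fun s _ => ?_
  refine d.val_mono (cut_nonneg _ _) (cut_nonneg _ _) (cut_le_of_le hasa (cut_nonneg _ _) ?_)
  refine (sub_le_sub_right hab _).trans ?_
  rw [Amenable.cut]
  conv_lhs => rw [← cfc_id' ℝ b hbsa, ← cfc_const s b hbsa,
    ← cfc_sub (fun x : ℝ => x) (fun _ => s) b continuous_id.continuousOn continuousOn_const]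
  exact cfc_mono (fun x _ => le_max_left _ _)
    (continuous_id.sub continuous_const).continuousOn (cont_cut s).continuousOn

lemma qv_le {a : D} (ha : 0 ≤ a) (ha1 : ‖a‖ ≤ 1) {t : ℝ} (ht0 : 0 ≤ t) (ht1 : t ≤ 1) :
    d.qv a ≤ t + d.val (Amenable.cut a t) := by
  have hsa := IsSelfAdjoint.of_nonneg ha
  rw [d.qv_eq ha ha1, ← intervalIntegral.integral_add_adjacent_intervals (d.prof_int hsa 0 t)
    (d.prof_int hsa t 1)]
  have h1 : ∫ s in (0 : ℝ)..t, d.prof a s ≤ ∫ _s in (0 : ℝ)..t, (1 : ℝ) :=
    intervalIntegral.integral_mono_on ht0 (d.prof_int hsa _ _) intervalIntegrable_const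
      fun s _ => d.val_le_one (cut_nonneg _ _)
  have h2 : ∫ s in t..1, d.prof a s ≤ ∫ _s in t..1, d.prof a t :=
    intervalIntegral.integral_mono_on ht1 (d.prof_int hsa _ _) intervalIntegrable_const
      fun s hs => d.prof_antitone hsa hs.1
  simp at h1 h2
  have h3 : d.prof a t = d.val (Amenable.cut a t) := rfl
  have h4 : (1 - t) * d.prof a t ≤ d.prof a t :=
    mul_le_of_le_one_left (d.val_nonneg (cut_nonneg _ _)) (by linarith)
  linarith

lemma qv_smul {a : D} (ha : 0 ≤ a) {r : ℝ} (hr : 0 ≤ r) : d.qv (r • a) = r * d.qv a := by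
  rcases hr.eq_or_lt with h | h
  · subst h; simp [qv]
  have hsa := IsSelfAdjoint.of_nonneg ha
  have e : ∀ s, d.prof (r • a) s = d.prof a (r⁻¹ * s) := fun s => by
    rw [prof, cut_smul hsa h, d.val_smul (cut_nonneg _ _) h, prof]
  rw [qv]
  simp only [e]
  rw [intervalIntegral.integral_comp_mul_left _ (inv_ne_zero h.ne'), inv_inv, smul_eq_mul,
    mul_zero, norm_smul, Real.norm_of_nonneg hr, ← mul_assoc, inv_mul_cancel₀ h.ne', one_mul, qv]

lemma qv_swap (x : D) : d.qv (star x * x) = d.qv (x * star x) := by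
  have key : ∀ x : D, d.qv (star x * x) ≤ d.qv (x * star x) := by
    intro x
    rw [d.qv_eq (mul_star_self_nonneg x) (le_max_right ‖star x * x‖ ‖x * star x‖),
      d.qv_eq (star_mul_self_nonneg x) (le_max_left ‖star x * x‖ ‖x * star x‖)]
    refine intervalIntegral.integral_mono_on_of_le_Ioo (le_max_of_le_left (norm_nonneg _))
      (d.prof_int (IsSelfAdjoint.star_mul_self x) _ _)
      (d.prof_int (IsSelfAdjoint.mul_star_self x) _ _) fun s hs => ?_
    exact d.val_mono (cut_nonneg _ _) (cut_nonneg _ _) (cut_star_mul_le x hs.1)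
  refine le_antisymm (key x) ?_
  simpa using key (star x)

lemma qv_orth {a b : D} (ha : 0 ≤ a) (hb : 0 ≤ b) (hab : a * b = 0) :
    d.qv (a + b) = d.qv a + d.qv b := by
  set R := max ‖a + b‖ (max ‖a‖ ‖b‖)
  have hR : 0 ≤ R := le_max_of_le_left (norm_nonneg _)
  have hasa := IsSelfAdjoint.of_nonneg ha
  have hbsa := IsSelfAdjoint.of_nonneg hb
  rw [d.qv_eq (add_nonneg ha hb) (R := R) (le_max_left _ _),
    d.qv_eq ha (R := R) (le_max_of_le_right (le_max_left _ _)),
    d.qv_eq hb (R := R) (le_max_of_le_right (le_max_right _ _)),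
    ← intervalIntegral.integral_add (d.prof_int hasa _ _) (d.prof_int hbsa _ _)]
  refine intervalIntegral.integral_congr_ae (Filter.Eventually.of_forall fun s hs => ?_)
  rw [Set.uIoc_of_le hR] at hs
  obtain ⟨e, h0⟩ := cut_orth_add ha hb hab hs.1
  rw [prof, e, d.val_add_orth (cut_nonneg _ _) (cut_nonneg _ _) h0, prof, prof]

lemma qv_tri {a b : D} (ha : 0 ≤ a) (hb : 0 ≤ b) {t : ℝ} (ht : 0 < t) :
    d.qv (a + b) ≤ (1 + t) * d.qv a + (1 + 1 / t) * d.qv b := by
  have hab := add_nonneg ha hb
  have hasa := IsSelfAdjoint.of_nonneg ha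
  have hbsa := IsSelfAdjoint.of_nonneg hb
  set l := (1 + t)⁻¹
  set l' := (1 + 1 / t)⁻¹
  have hl : 0 < l := by positivity
  have hl' : 0 < l' := by positivity
  have hll : l + l' = 1 := by simp only [l, l']; field_simp; ring
  set R := max ‖a + b‖ (max (l⁻¹ * ‖a‖) (l'⁻¹ * ‖b‖))
  have hR : 0 ≤ R := le_max_of_le_left (norm_nonneg _)
  have hRa : ‖a‖ ≤ l * R := (inv_mul_le_iff₀ hl).1 (le_max_of_le_right (le_max_left _ _))
  have hRb : ‖b‖ ≤ l' * R := (inv_mul_le_iff₀ hl').1 (le_max_of_le_right (le_max_right _ _))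
  have ia : IntervalIntegrable (fun s => d.prof a (l * s)) volume 0 R :=
    Antitone.intervalIntegrable fun s s' h => d.prof_antitone hasa
      (mul_le_mul_of_nonneg_left h hl.le)
  have ib : IntervalIntegrable (fun s => d.prof b (l' * s)) volume 0 R :=
    Antitone.intervalIntegrable fun s s' h => d.prof_antitone hbsa
      (mul_le_mul_of_nonneg_left h hl'.le)
  have h1 : d.qv (a + b) ≤ ∫ s in (0 : ℝ)..R, (d.prof a (l * s) + d.prof b (l' * s)) := by
    rw [d.qv_eq hab (R := R) (le_max_left _ _)]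
    refine intervalIntegral.integral_mono_on hR (d.prof_int (hasa.add hbsa) _ _) (ia.add ib)
      fun s _ => ?_
    refine (d.val_mono (cut_nonneg _ _) (add_nonneg (cut_nonneg _ _) (cut_nonneg _ _))
      (cut_le_of_le (hasa.add hbsa) (add_nonneg (cut_nonneg a (l * s)) (cut_nonneg b (l' * s))) ?_)).trans
      (d.val_add_le (cut_nonneg _ _) (cut_nonneg _ _))
    have key : ∀ (u : D) (r : ℝ), IsSelfAdjoint u → u - algebraMap ℝ D r ≤ Amenable.cut u r := by
      intro u r hu
      rw [Amenable.cut]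
      conv_lhs => rw [← cfc_id' ℝ u hu, ← cfc_const r u hu,
        ← cfc_sub (fun x : ℝ => x) (fun _ => r) u continuous_id.continuousOn continuousOn_const]
      exact cfc_mono (fun x _ => le_max_left _ _)
        (continuous_id.sub continuous_const).continuousOn (cont_cut r).continuousOn
    refine le_trans (le_of_eq ?_) (add_le_add (key a (l * s) hasa) (key b (l' * s) hbsa))
    rw [sub_add_sub_comm, ← map_add, ← add_mul, hll, one_mul]
  rw [intervalIntegral.integral_add ia ib, intervalIntegral.integral_comp_mul_left _ hl.ne',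
    intervalIntegral.integral_comp_mul_left _ hl'.ne', mul_zero, mul_zero, ← d.qv_eq ha hRa,
    ← d.qv_eq hb hRb] at h1
  simpa [l, l'] using h1

/-- The quasitracial state. -/
def toQT : QT D where
  q := d.qv
  nonneg _ := d.qv_nonneg
  one := by
    rcases subsingleton_or_nontrivial D with _ | _
    · have := d.val_one
      rw [Subsingleton.elim (1 : D) 0, d.val_zero] at this
      exact absurd this zero_ne_one
    have e : ∀ s ∈ Set.Ioo (0 : ℝ) 1, d.prof 1 s = 1 := fun s hs => by
      have : Amenable.cut (1 : D) s = (1 - s) • (1 : D) := by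
        rw [Amenable.cut, cfc_apply_one, max_eq_left (by linarith [hs.2]), Algebra.algebraMap_eq_smul_one]
      rw [prof, this, d.val_smul zero_le_one (by linarith [hs.2]), d.val_one]
    rw [d.qv_eq zero_le_one (R := 1) norm_one.le, intervalIntegral.integral_congr_ae
      (g := fun _ => (1 : ℝ))]
    · simp
    · rw [Filter.eventually_iff_exists_mem]
      refine ⟨{1}ᶜ, (measure_eq_zero_iff_ae_notMem.1 (measure_singleton _)), fun s hs hs' => ?_⟩
      rw [Set.uIoc_of_le zero_le_one] at hs'
      exact e s ⟨hs'.1, lt_of_le_of_ne hs'.2 hs⟩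
  smul _ x hr := d.qv_smul (star_mul_self_nonneg x) hr
  swap := d.qv_swap
  mono x y := d.qv_mono (star_mul_self_nonneg x) (le_add_of_nonneg_right (star_mul_self_nonneg y))
  orth x y h := d.qv_orth (star_mul_self_nonneg x) (star_mul_self_nonneg y) h
  tri x y _ ht := d.qv_tri (star_mul_self_nonneg x) (star_mul_self_nonneg y) ht

end CuState

end Vale.Agent.P095.General.Cu
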