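import Mathlib
import Vale.Agent.P095.General.Cu.State

/-!
The Goodearl-Handelman argument: a full element which is uniformly large in all dimension states
has boundedly many copies above many copies of the unit.
-/

noncomputable section

open scoped CStarAlgebra
open Finset

namespace Vale.Agent.P095.General.Cu

universe u

variable {D : Type u} [CStarAlgebra D] [PartialOrder D] [StarOrderedRing D]

/-- The generators of the formal sums. -/
abbrev Gen (D : Type u) [CStarAlgebra D] [PartialOrder D] : Type u := {a : D // 0 ≤ a}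

/-- The formal sum of a family. -/
def fs {ι : Type} [Fintype ι] (x : ι → Gen D) : Gen D →₀ ℤ := ∑ i, Finsupp.single (x i) 1

/-- The unit as a generator. -/
def gone : Gen D := ⟨1, zero_le_one⟩

lemma fs_apply {ι : Type} [Fintype ι] [DecidableEq (Gen D)] (x : ι → Gen D) (a : Gen D) :
    fs x a = ((univ.filter fun i => x i = a).card : ℤ) := by
  simp [fs, Finsupp.finsetSum_apply, Finsupp.single_apply, Finset.sum_boole]

lemma fs_elim {ι κ : Type} [Fintype ι] [Fintype κ] (x : ι → Gen D) (y : κ → Gen D) :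
    fs (Sum.elim x y) = fs x + fs y := by
  simp [fs, Fintype.sum_sum_type]

lemma fs_const {ι : Type} [Fintype ι] (a : Gen D) :
    fs (fun _ : ι => a) = Fintype.card ι • Finsupp.single a (1 : ℤ) := by
  simp [fs]

/-- Families with the same formal sum differ by a bijection. -/
lemma exists_equiv {ι κ : Type} [Fintype ι] [Fintype κ] {x : ι → Gen D} {y : κ → Gen D}
    (h : fs x = fs y) : ∃ e : ι ≃ κ, ∀ i, y (e i) = x i := by
  classical
  have h' : ∀ a, Fintype.card {i // x i = a} = Fintype.card {j // y j = a} := fun a => by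
    have := DFunLike.congr_fun h a
    rw [fs_apply, fs_apply] at this
    rw [Fintype.card_subtype, Fintype.card_subtype]
    exact_mod_cast this
  exact ⟨Equiv.ofFiberEquiv fun a => Fintype.equivOfCardEq (h' a),
    fun i => Equiv.ofFiberEquiv_map _ i⟩

lemma sub_of_fs {ι κ : Type} [Fintype ι] [Fintype κ] {x : ι → Gen D} {y : κ → Gen D}
    (h : fs x = fs y) : Sub (fun i => (x i : D)) (fun j => (y j : D)) := by
  obtain ⟨e, he⟩ := exists_equiv h
  simpa only [he] using sub_of_map e e.injective fun j => (y j : D)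

lemma sub_const {ι κ : Type} [Fintype ι] [Fintype κ] (c : D)
    (h : Fintype.card ι ≤ Fintype.card κ) : Sub (fun _ : ι => c) (fun _ : κ => c) := by
  obtain ⟨f⟩ := Function.Embedding.nonempty_of_card_le h
  exact sub_of_map f f.injective fun _ : κ => c

lemma elim_const {ι κ : Type} (c : D) :
    Sum.elim (fun _ : ι => c) (fun _ : κ => c) = fun _ => c := by
  funext i; cases i <;> rfl

lemma sub_elim_of_nonneg {ι κ : Type} [Fintype ι] [Fintype κ] (x : ι → D) (y : κ → D) :
    Sub x (Sum.elim y x) := sub_of_map Sum.inr Sum.inr_injective (Sum.elim y x)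

variable (L : ℕ) (g : Gen D)

/-- The positive formal sums: those from subequivalences, and 1 - L g. -/
def Pos (u : Gen D →₀ ℤ) : Prop :=
  ∃ (n m : ℕ) (x : Fin n → Gen D) (y : Fin m → Gen D) (s : ℕ),
    Sub (fun i => (x i : D)) (fun i => (y i : D)) ∧
      u = fs y - fs x + s • (Finsupp.single gone 1 - L • Finsupp.single g 1)

variable {L g}

lemma Pos.of_sub {ι κ : Type} [Fintype ι] [Fintype κ] (x : ι → Gen D) (y : κ → Gen D)
    (h : Sub (fun i => (x i : D)) (fun i => (y i : D))) : Pos L g (fs y - fs x) := by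
  set e := (Fintype.equivFin ι).symm
  set f := (Fintype.equivFin κ).symm
  refine ⟨_, _, fun i => x (e i), fun i => y (f i), 0,
    ((sub_equiv (fun i => (x i : D)) e).1.trans h).trans (sub_equiv (fun i => (y i : D)) f).2, ?_⟩
  simp [fs, e.sum_comp (fun i => Finsupp.single (x i) (1 : ℤ)),
    f.sum_comp (fun i => Finsupp.single (y i) (1 : ℤ))]

lemma Pos.zero : Pos L g 0 := by
  simpa [fs] using Pos.of_sub (L := L) (g := g) (fun i : Fin 0 => i.elim0) (fun i : Fin 0 => i.elim0)
    (Sub.refl _)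

lemma Pos.add {u v : Gen D →₀ ℤ} (hu : Pos L g u) (hv : Pos L g v) : Pos L g (u + v) := by
  obtain ⟨n, m, x, y, s, h, rfl⟩ := hu
  obtain ⟨n', m', x', y', s', h', rfl⟩ := hv
  set e := (finSumFinEquiv : Fin n ⊕ Fin n' ≃ Fin (n + n')).symm
  set f := (finSumFinEquiv : Fin m ⊕ Fin m' ≃ Fin (m + m')).symm
  refine ⟨_, _, fun i => Sum.elim x x' (e i), fun i => Sum.elim y y' (f i), s + s', ?_, ?_⟩
  · have hc : ∀ {ι κ : Type} (a : ι → Gen D) (b : κ → Gen D),
        (fun i => ((Sum.elim a b i : Gen D) : D)) = Sum.elim (fun i => (a i : D)) fun i => (b i : D) :=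
      fun a b => by funext i; cases i <;> rfl
    have h2 := h.append h'
    rw [← hc, ← hc] at h2
    exact ((sub_equiv _ e).1.trans h2).trans (sub_equiv _ f).2
  · have e1 := e.sum_comp (fun i => Finsupp.single (Sum.elim x x' i) (1 : ℤ))
    have e2 := f.sum_comp (fun i => Finsupp.single (Sum.elim y y' i) (1 : ℤ))
    rw [Fintype.sum_sum_type] at e1 e2
    simp only [fs, e1, e2, Sum.elim_inl, Sum.elim_inr, add_smul]
    abel

lemma Pos.nsmul {u : Gen D →₀ ℤ} (hu : Pos L g u) (k : ℕ) : Pos L g (k • u) := by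
  induction k with
  | zero => simpa using Pos.zero
  | succ k ih => rw [succ_nsmul]; exact ih.add hu

lemma Pos.sum {ι : Type*} (s : Finset ι) (f : ι → Gen D →₀ ℤ) (h : ∀ i ∈ s, Pos L g (f i)) :
    Pos L g (∑ i ∈ s, f i) :=
  Finset.sum_induction f (Pos L g) (fun _ _ => Pos.add) Pos.zero h

lemma Pos.single (a : Gen D) :
    Pos L g (Finsupp.single a 1) ∧ Pos L g (Finsupp.single gone 1 - Finsupp.single a 1) := by
  constructor
  · simpa [fs] using Pos.of_sub (L := L) (g := g) (fun i : Fin 0 => i.elim0) (fun _ : Fin 1 => a)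
      (sub_of_exact (fun _ i => i.elim0) (fun i => i.elim0) fun i => i.elim0)
  · have h : Sub (fun _ : Fin 1 => (a : D)) (fun _ : Fin 1 => ((gone : Gen D) : D)) :=
      sub_of_exact (fun _ _ => CFC.sqrt (a : D)) (fun _ => by
        simp [gone, (IsSelfAdjoint.of_nonneg (CFC.sqrt_nonneg (a : D))).star_eq,
          CFC.sqrt_mul_sqrt_self (a : D) a.2]) fun i j h => absurd (Subsingleton.elim i j) h
    simpa [fs] using Pos.of_sub (L := L) (g := g) (fun _ : Fin 1 => a) (fun _ : Fin 1 => gone) h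

/-- The absolute sum of the coefficients dominates. -/
lemma Pos.abs_sub (w : Gen D →₀ ℤ) :
    Pos L g (w.sum (fun _ c => |c|) • Finsupp.single gone (1 : ℤ) - w) := by
  have hw : w.sum (fun _ c => |c|) • Finsupp.single gone (1 : ℤ) - w
      = ∑ a ∈ w.support, (|w a| • Finsupp.single gone (1 : ℤ) - Finsupp.single a (w a)) := by
    rw [sum_sub_distrib, ← sum_smul]
    congr 1
    exact (Finsupp.sum_single w).symm
  rw [hw]
  refine Pos.sum _ _ fun a _ => ?_
  obtain ⟨h1, h2⟩ := Pos.single (L := L) (g := g) a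
  rcases Int.eq_nat_or_neg (w a) with ⟨k, hk | hk⟩ <;> rw [hk]
  · convert h2.nsmul k using 1
    rw [Nat.abs_cast, natCast_zsmul, smul_sub, Finsupp.smul_single, Finsupp.smul_single]
    simp
  · convert ((Pos.single (L := L) (g := g) gone).1.nsmul k).add (h1.nsmul k) using 1
    rw [abs_neg, Nat.abs_cast, natCast_zsmul, Finsupp.smul_single, Finsupp.smul_single]
    simp

/-- Integer coefficients as real ones. -/
def toReal : (Gen D →₀ ℤ) →+ Gen D →₀ ℝ := Finsupp.mapRange.addMonoidHom (Int.castAddHom ℝ)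

@[simp] lemma toReal_apply (u : Gen D →₀ ℤ) (a : Gen D) : toReal u a = (u a : ℝ) := rfl

/-- The absolute sum of real coefficients. -/
def l1 (v : Gen D →₀ ℝ) : ℝ := v.sum fun _ c => |c|

lemma l1_eq (v : Gen D →₀ ℝ) {s : Finset (Gen D)} (hs : v.support ⊆ s) :
    l1 v = ∑ a ∈ s, |v a| :=
  Finsupp.sum_of_support_subset v hs _ fun _ _ => abs_zero

lemma l1_nonneg (v : Gen D →₀ ℝ) : 0 ≤ l1 v := sum_nonneg fun _ _ => abs_nonneg _

lemma l1_add (v w : Gen D →₀ ℝ) : l1 (v + w) ≤ l1 v + l1 w := by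
  classical
  set s := (v + w).support ∪ (v.support ∪ w.support) with hs
  rw [l1_eq (v + w) (s := s) subset_union_left,
    l1_eq v (s := s) (subset_union_left.trans subset_union_right),
    l1_eq w (s := s) (subset_union_right.trans subset_union_right), ← sum_add_distrib]
  exact sum_le_sum fun a _ => by rw [Finsupp.add_apply]; exact abs_add_le _ _

lemma l1_smul (c : ℝ) (v : Gen D →₀ ℝ) : l1 (c • v) = |c| * l1 v := by
  rw [l1_eq (c • v) (s := v.support) Finsupp.support_smul, l1, Finsupp.sum, mul_sum]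
  exact sum_congr rfl fun a _ => by rw [Finsupp.smul_apply, smul_eq_mul, abs_mul]

lemma l1_toReal (u : Gen D →₀ ℤ) : l1 (toReal u) = ((u.sum fun _ c => |c| : ℤ) : ℝ) := by
  rw [l1_eq (toReal u) (s := u.support) (fun a ha => by
    rw [Finsupp.mem_support_iff] at ha ⊢
    simpa using ha), Finsupp.sum, Int.cast_sum]
  simp

variable (L g) in
/-- The closed cone of positive real formal sums. -/
def cone : PointedCone ℝ (Gen D →₀ ℝ) where
  carrier := {v | ∀ ε : ℝ, 0 < ε → ∃ (k : ℕ) (u : Gen D →₀ ℤ), 0 < k ∧ Pos L g u ∧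
    l1 (v - (k : ℝ)⁻¹ • toReal u) ≤ ε}
  zero_mem' ε hε := ⟨1, 0, one_pos, Pos.zero, by simp [l1, hε.le]⟩
  add_mem' {v w} hv hw ε hε := by
    obtain ⟨k, u, hk, hu, h1⟩ := hv (ε / 2) (half_pos hε)
    obtain ⟨k', u', hk', hu', h2⟩ := hw (ε / 2) (half_pos hε)
    refine ⟨k * k', k' • u + k • u', Nat.mul_pos hk hk', (hu.nsmul k').add (hu'.nsmul k), ?_⟩
    have e : v + w - ((k * k' : ℕ) : ℝ)⁻¹ • toReal (k' • u + k • u')
        = (v - (k : ℝ)⁻¹ • toReal u) + (w - (k' : ℝ)⁻¹ • toReal u') := by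
      have a1 : (k : ℝ) ≠ 0 := by positivity
      have a2 : (k' : ℝ) ≠ 0 := by positivity
      simp only [map_add, map_nsmul, smul_add, ← Nat.cast_smul_eq_nsmul ℝ, smul_smul]
      push_cast
      rw [show ((k : ℝ) * k')⁻¹ * k' = (k : ℝ)⁻¹ by field_simp,
        show ((k : ℝ) * k')⁻¹ * k = (k' : ℝ)⁻¹ by field_simp]
      abel
    rw [e]
    linarith [l1_add (v - (k : ℝ)⁻¹ • toReal u) (w - (k' : ℝ)⁻¹ • toReal u')]
  smul_mem' c v hv ε hε := by
    obtain ⟨c, hc⟩ := c
    show ∃ (k : ℕ) (u : Gen D →₀ ℤ), 0 < k ∧ Pos L g u ∧ l1 (c • v - (k : ℝ)⁻¹ • toReal u) ≤ ε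
    obtain ⟨k, u, hk, hu, h1⟩ := hv (ε / (2 * (c + 1))) (by positivity)
    set M := l1 ((k : ℝ)⁻¹ • toReal u)
    have hM : 0 ≤ M := l1_nonneg _
    obtain ⟨q, hq⟩ := exists_nat_gt ((M + 1) * 2 / ε)
    have hq0 : 0 < q := by exact_mod_cast (show (0 : ℝ) < q from lt_trans (by positivity) hq)
    set r := ⌊c * q⌋₊
    refine ⟨k * q, r • u, Nat.mul_pos hk hq0, hu.nsmul r, ?_⟩
    have hq' : (0 : ℝ) < q := by exact_mod_cast hq0
    have e : c • v - ((k * q : ℕ) : ℝ)⁻¹ • toReal (r • u)
        = c • (v - (k : ℝ)⁻¹ • toReal u) + (c - (r : ℝ) / q) • ((k : ℝ)⁻¹ • toReal u) := by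
      have a1 : (k : ℝ) ≠ 0 := by positivity
      simp only [map_nsmul, ← Nat.cast_smul_eq_nsmul ℝ, smul_smul, smul_sub, sub_smul, sub_mul]
      push_cast
      rw [show ((k : ℝ) * q)⁻¹ * r = (r : ℝ) / q * (k : ℝ)⁻¹ by field_simp]
      abel
    rw [e]
    refine (l1_add _ _).trans ?_
    rw [l1_smul, l1_smul, abs_of_nonneg hc]
    have b1 : |c - (r : ℝ) / q| ≤ 1 / q := by
      have h2 : (r : ℝ) ≤ c * q := Nat.floor_le (mul_nonneg hc hq'.le)
      have h3 : c * q < r + 1 := Nat.lt_floor_add_one _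
      rw [abs_le]
      constructor
      · have : (r : ℝ) / q ≤ c := (div_le_iff₀ hq').2 h2
        have h4 : (0 : ℝ) ≤ 1 / q := by positivity
        linarith
      · have : c < ((r : ℝ) + 1) / q := (lt_div_iff₀ hq').2 h3
        rw [add_div] at this
        linarith
    have b2 : 1 / (q : ℝ) * M ≤ ε / 2 := by
      rw [div_lt_iff₀ hε] at hq
      rw [one_div_mul_eq_div, div_le_iff₀ hq']
      nlinarith
    have b3 : c * (ε / (2 * (c + 1))) ≤ ε / 2 := by
      rw [mul_div, div_le_iff₀ (by positivity)]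
      nlinarith
    have b4 := mul_le_mul_of_nonneg_right b1 hM
    have b5 := mul_le_mul_of_nonneg_left h1 hc
    linarith

lemma mem_cone {v : Gen D →₀ ℝ} : v ∈ cone L g ↔ ∀ ε : ℝ, 0 < ε → ∃ (k : ℕ) (u : Gen D →₀ ℤ),
    0 < k ∧ Pos L g u ∧ l1 (v - (k : ℝ)⁻¹ • toReal u) ≤ ε := Iff.rfl

lemma toReal_mem_cone {u : Gen D →₀ ℤ} (hu : Pos L g u) : toReal u ∈ cone L g :=
  mem_cone.2 fun ε hε => ⟨1, u, one_pos, hu, by simp [l1, hε.le]⟩

lemma toReal_single (a : Gen D) : toReal (Finsupp.single a 1) = Finsupp.single a (1 : ℝ) := by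
  simp [toReal]

lemma smul_mem_cone {v : Gen D →₀ ℝ} (hv : v ∈ cone L g) {c : ℝ} (hc : 0 ≤ c) :
    c • v ∈ cone L g := (cone L g).smul_mem hc hv

/-- The cone is proper unless some negative multiple of the unit is positive. -/
lemma neg_not_mem (h : ∀ m : ℕ, 0 < m → ¬ Pos L g (-(m • Finsupp.single gone 1))) :
    -Finsupp.single gone (1 : ℝ) ∉ cone L g := by
  intro hmem
  obtain ⟨k, u, hk, hu, h1⟩ := mem_cone.1 hmem (1 / 2) (by norm_num)
  set w := u + k • Finsupp.single gone (1 : ℤ)
  have hk' : (0 : ℝ) < k := by exact_mod_cast hk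
  have e : toReal w = -(k : ℝ) • (-Finsupp.single gone (1 : ℝ) - (k : ℝ)⁻¹ • toReal u) := by
    simp only [w, map_add, map_nsmul, toReal_single, ← Nat.cast_smul_eq_nsmul ℝ]
    rw [smul_sub, smul_smul, neg_mul, mul_inv_cancel₀ hk'.ne', smul_neg, neg_smul, neg_smul,
      one_smul]
    abel
  set c := w.sum fun _ c => |c|
  have hc : (c : ℝ) ≤ k / 2 := by
    rw [← l1_toReal, e, l1_smul, abs_neg, abs_of_pos hk']
    nlinarith
  have hc' : c < k := by
    have : (c : ℝ) < ((k : ℤ) : ℝ) := by push_cast; linarith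
    exact_mod_cast this
  have hpos : Pos L g (u + (c • Finsupp.single gone (1 : ℤ) - w)) := hu.add (Pos.abs_sub w)
  obtain ⟨m, hm⟩ := Int.eq_ofNat_of_zero_le (show 0 ≤ (k : ℤ) - c by omega)
  refine h m (by omega) ?_
  convert hpos using 1
  have : c = (k : ℤ) - m := by omega
  rw [this]
  simp only [w, sub_smul, natCast_zsmul]
  abel

/-- A state with value at most 1/L at g, if the cone is proper. -/
lemma exists_state (hL : 0 < L) (h : -Finsupp.single gone (1 : ℝ) ∉ cone L g) :
    ∃ d : CuState D, d.val (g : D) ≤ 1 / L := by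
  classical
  set e1 : Gen D →₀ ℝ := Finsupp.single gone 1
  have he1 : e1 ≠ 0 := by simp [e1]
  let f : (Gen D →₀ ℝ) →ₗ.[ℝ] ℝ := LinearPMap.mkSpanSingleton e1 (1 : ℝ) he1
  have hone : e1 ∈ cone L g := by
    rw [show e1 = toReal (Finsupp.single gone 1) from (toReal_single gone).symm]
    exact toReal_mem_cone (Pos.single gone).1
  obtain ⟨G, hG1, hG2⟩ := riesz_extension (cone L g) f (by
    rintro ⟨x, hx⟩ hmem
    obtain ⟨c, rfl⟩ := Submodule.mem_span_singleton.1 hx
    simp only [f]
    erw [LinearPMap.mkSpanSingleton'_apply]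
    simp only [RingHom.id_apply, smul_eq_mul, mul_one]
    by_contra hc
    refine h ?_
    have := smul_mem_cone hmem (inv_nonneg.2 (neg_nonneg.2 (not_le.1 hc).le))
    rwa [smul_smul, show (-c)⁻¹ * c = -1 by
      rw [inv_neg, neg_mul, inv_mul_cancel₀ (not_le.1 hc).ne], neg_one_smul] at this) (by
    intro y
    refine ⟨⟨(l1 y) • e1, Submodule.mem_span_singleton.2 ⟨_, rfl⟩⟩, ?_⟩
    have hy : (l1 y) • e1 + y = ∑ a ∈ y.support, (|y a| • e1 + Finsupp.single a (y a)) := by
      rw [sum_add_distrib, ← sum_smul]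
      congr 1
      exact (Finsupp.sum_single y).symm
    show l1 y • e1 + y ∈ cone L g
    rw [hy]
    refine Submodule.sum_mem _ fun a _ => ?_
    rcases le_total 0 (y a) with ha | ha
    · rw [← mul_one (y a), ← smul_eq_mul (y a) 1, ← Finsupp.smul_single, smul_eq_mul, mul_one]
      refine add_mem (smul_mem_cone hone (abs_nonneg _)) (smul_mem_cone ?_ ha)
      rw [← toReal_single]
      exact toReal_mem_cone (Pos.single a).1
    · rw [abs_of_nonpos ha, show Finsupp.single a (y a) = -(-(y a) • Finsupp.single a (1 : ℝ)) by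
        simp, ← sub_eq_add_neg, ← smul_sub]
      refine smul_mem_cone ?_ (neg_nonneg.2 ha)
      rw [show e1 - Finsupp.single a (1 : ℝ)
        = toReal (Finsupp.single gone 1 - Finsupp.single a 1) by
          rw [map_sub, toReal_single, toReal_single]]
      exact toReal_mem_cone (Pos.single a).2)
  set v : D → ℝ := fun a => if ha : 0 ≤ a then G (Finsupp.single ⟨a, ha⟩ 1) else 0
  have hv : ∀ a : Gen D, v (a : D) = G (Finsupp.single a 1) := fun a => by
    simp only [v, dif_pos a.2]
  have hG : G e1 = 1 := by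
    have := hG1 ⟨e1, Submodule.mem_span_singleton_self e1⟩
    rwa [LinearPMap.mkSpanSingleton_apply] at this
  refine ⟨⟨v, ?_, fun x y hx hy hxy => ?_⟩, ?_⟩
  · rw [show (1 : D) = ((gone : Gen D) : D) from rfl, hv]; exact hG
  · have := hG2 _ (toReal_mem_cone (Pos.of_sub (L := L) (g := g) (fun i => (⟨x i, hx i⟩ : Gen D))
      (fun i => (⟨y i, hy i⟩ : Gen D)) hxy))
    simp only [fs, map_sub, map_sum, toReal_single, ← hv] at this
    linarith
  · show v (g : D) ≤ 1 / L
    have hp : Pos L g (Finsupp.single gone 1 - L • Finsupp.single g (1 : ℤ)) :=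
      ⟨0, 0, fun i => i.elim0, fun i => i.elim0, 1, Sub.refl _, by simp [fs]⟩
    have := hG2 _ (toReal_mem_cone hp)
    rw [map_sub, map_sub, map_nsmul, map_nsmul, toReal_single, toReal_single, hG, nsmul_eq_mul,
      ← hv] at this
    have hL' : (0 : ℝ) < L := by exact_mod_cast hL
    rw [le_div_iff₀ hL']
    linarith

/-- Goodearl and Handelman: copies of g above copies of the unit. -/
theorem exists_ratio (hL : 0 < L) {N₀ : ℕ}
    (hfull : Sub (fun _ : Fin 1 => (1 : D)) (fun _ : Fin N₀ => (g : D)))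
    (hd : ∀ d : CuState D, 1 / (L : ℝ) < d.val (g : D)) :
    ∃ k l : ℕ, 0 < k ∧ l ≤ L * k ∧
      Sub (fun _ : Fin k => (1 : D)) (fun _ : Fin l => (g : D)) := by
  by_cases hp : ∀ m : ℕ, 0 < m → ¬ Pos L g (-(m • Finsupp.single gone 1))
  · obtain ⟨d, hle⟩ := exists_state hL (neg_not_mem hp)
    linarith [hd d]
  simp only [not_forall, not_not] at hp
  obtain ⟨m, hm, n, n', x, y, s, hxy, heq⟩ := hp
  set M := s + m
  set l₀ := s * L
  set Y : Fin n' → D := fun i => (y i : D)
  have hc : ∀ {ι κ : Type} (a : ι → Gen D) (b : κ → Gen D),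
      (fun i => ((Sum.elim a b i : Gen D) : D)) = Sum.elim (fun i => (a i : D)) fun i => (b i : D) :=
    fun a b => by funext i; cases i <;> rfl
  have hstep : Sub (Sum.elim Y fun _ : Fin M => (1 : D))
      (Sum.elim Y fun _ : Fin l₀ => (g : D)) := by
    have e : fs (Sum.elim y fun _ : Fin M => gone) = fs (Sum.elim x fun _ : Fin l₀ => g) := by
      rw [fs_elim, fs_elim, fs_const, fs_const, Fintype.card_fin, Fintype.card_fin]
      simp only [M, l₀, add_smul, mul_smul, smul_sub] at heq ⊢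
      rw [← sub_eq_zero]
      rw [← sub_eq_zero] at heq
      rw [← neg_eq_zero, ← heq]
      abel
    have h1 := sub_of_fs e
    rw [hc, hc] at h1
    exact h1.trans (hxy.append (Sub.refl _))
  have hiter : ∀ j : ℕ, Sub (Sum.elim Y fun _ : Fin (j * M) => (1 : D))
      (Sum.elim Y fun _ : Fin (j * l₀) => (g : D)) := by
    intro j
    induction j with
    | zero =>
      refine (Sub.refl Y).append (sub_of_exact (fun _ i => ?_) (fun i => ?_) fun i => ?_) <;>
        exact absurd i.2 (by simp)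
    | succ j ih =>
      have hsplit : ∀ (a b : ℕ) (c : D),
          Sub (fun _ : Fin ((a + 1) * b) => c) (fun _ : Fin (a * b) ⊕ Fin b => c) ∧
          Sub (fun _ : Fin (a * b) ⊕ Fin b => c) (fun _ : Fin ((a + 1) * b) => c) := fun a b c =>
        ⟨sub_const c (by simp [add_one_mul]), sub_const c (by simp [add_one_mul])⟩
      have helim : ∀ {ι κ : Type} (c : D),
          (fun _ : ι ⊕ κ => c) = Sum.elim (fun _ : ι => c) fun _ : κ => c :=
        fun c => by funext i; cases i <;> rfl
      set A : Fin (j * M) → D := fun _ => 1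
      set B : Fin M → D := fun _ => 1
      set A' : Fin (j * l₀) → D := fun _ => (g : D)
      set B' : Fin l₀ → D := fun _ => (g : D)
      have s1 : Sub (Sum.elim Y fun _ : Fin ((j + 1) * M) => (1 : D))
          (Sum.elim Y (Sum.elim A B)) := by
        refine (Sub.refl Y).append ?_
        simpa only [helim] using (hsplit j M 1).1
      have s2 : Sub (Sum.elim Y (Sum.elim A B)) (Sum.elim (Sum.elim Y A) B) := by
        convert sub_of_map (Equiv.sumAssoc (Fin n') (Fin (j * M)) (Fin M)).symm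
          (Equiv.injective _) (Sum.elim (Sum.elim Y A) B) using 1
        funext i; rcases i with i | (i | i) <;> rfl
      have s3 : Sub (Sum.elim (Sum.elim Y A) B) (Sum.elim (Sum.elim Y B) A') := by
        refine (ih.append (Sub.refl B)).trans ?_
        convert sub_of_map (⟨Sum.elim (Sum.elim (Sum.inl ∘ Sum.inl) Sum.inr) (Sum.inl ∘ Sum.inr),
          Sum.elim (Sum.elim (Sum.inl ∘ Sum.inl) Sum.inr) (Sum.inl ∘ Sum.inr),
          by rintro ((i | i) | i) <;> rfl, by rintro ((i | i) | i) <;> rfl⟩ :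
          (Fin n' ⊕ Fin (j * l₀)) ⊕ Fin M ≃ (Fin n' ⊕ Fin M) ⊕ Fin (j * l₀))
          (Equiv.injective _) (Sum.elim (Sum.elim Y B) A') using 1
        funext i; rcases i with (i | i) | i <;> rfl
      have s4 : Sub (Sum.elim (Sum.elim Y B) A') (Sum.elim (Sum.elim Y B') A') :=
        hstep.append (Sub.refl A')
      have s5 : Sub (Sum.elim (Sum.elim Y B') A') (Sum.elim Y (Sum.elim A' B')) := by
        convert sub_of_map (⟨Sum.elim (Sum.elim Sum.inl (Sum.inr ∘ Sum.inr)) (Sum.inr ∘ Sum.inl),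
          Sum.elim (Sum.inl ∘ Sum.inl) (Sum.elim Sum.inr (Sum.inl ∘ Sum.inr)),
          by rintro ((i | i) | i) <;> rfl, by rintro (i | (i | i)) <;> rfl⟩ :
          (Fin n' ⊕ Fin l₀) ⊕ Fin (j * l₀) ≃ Fin n' ⊕ (Fin (j * l₀) ⊕ Fin l₀))
          (Equiv.injective _) (Sum.elim Y (Sum.elim A' B')) using 1
        funext i; rcases i with (i | i) | i <;> rfl
      have s6 : Sub (Sum.elim Y (Sum.elim A' B'))
          (Sum.elim Y fun _ : Fin ((j + 1) * l₀) => (g : D)) := by
        refine (Sub.refl Y).append ?_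
        simpa only [helim] using (hsplit j l₀ (g : D)).2
      exact ((((s1.trans s2).trans s3).trans s4).trans s5).trans s6
  have hY : Sub Y (fun _ : Fin (n' * N₀) => (g : D)) := by
    have h1 : Sub Y (fun _ : Fin n' => (1 : D)) :=
      sub_of_exact (fun p i => if p = i then CFC.sqrt (Y i) else 0)
        (fun i => by
          rw [sum_eq_single i] <;> simp +contextual [Y,
            (IsSelfAdjoint.of_nonneg (CFC.sqrt_nonneg (y i : D))).star_eq,
            CFC.sqrt_mul_sqrt_self (y i : D) (y i).2])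
        fun i j hij => sum_eq_zero fun p _ => by
          by_cases h : p = i
          · subst h; simp [hij]
          · simp [h]
    have hclone : ∀ q : ℕ, Sub (fun _ : Fin q => (1 : D)) (fun _ : Fin (q * N₀) => (g : D)) := by
      intro q
      induction q with
      | zero => exact sub_of_exact (fun _ i => i.elim0) (fun i => i.elim0) fun i => i.elim0
      | succ q ihq =>
        have h2 := ihq.append hfull
        have h3 : Sub (fun _ : Fin (q + 1) => (1 : D))
            (Sum.elim (fun _ : Fin q => (1 : D)) fun _ : Fin 1 => (1 : D)) := by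
          rw [elim_const]
          exact sub_const _ (by simp)
        refine (h3.trans h2).trans ?_
        rw [elim_const]
        exact sub_const _ (by simp [add_one_mul])
    exact h1.trans (hclone n')
  set j := n' * N₀ + 1
  refine ⟨j * M, n' * N₀ + j * l₀, Nat.mul_pos (Nat.succ_pos _) (by omega), ?_, ?_⟩
  · have h1 : l₀ + 1 ≤ L * M := by
      simp only [l₀, M, mul_add, mul_comm s L]
      have := Nat.mul_pos hL hm
      omega
    have h2 : j * (l₀ + 1) ≤ j * (L * M) := Nat.mul_le_mul_left j h1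
    have h3 : j * (L * M) = L * (j * M) := by ring
    have h4 : j * (l₀ + 1) = j * l₀ + j := by ring
    omega
  · refine (sub_elim_of_nonneg _ Y).trans (((hiter j).trans (hY.append (Sub.refl _))).trans ?_)
    rw [elim_const]
    exact sub_const _ (by simp)

end Vale.Agent.P095.General.Cu
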